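import Vale.Agent.P022D.R.Gas

namespace Vale.Agent.P022E.R.Van
export Vale.Agent.P022D.R.Van (
  mono map)
end Vale.Agent.P022E.R.Van

namespace Vale.Agent.P022E.R
export Vale.Agent.P022D.R (
  map_evl Van evl ulim_ser sub_top evl_C van_of_pow evl_zero ker_nil evl_X ulim_adic
  evl_eq_zero pro evl_coe ulim exists_ultra evl_eq gas)
end Vale.Agent.P022E.R
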