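import Vale.Agent.P022D.R.Obj
import Vale.Agent.P022E.R.Defs
import Vale.Agent.P022E.R.Gas

namespace Vale.Agent.P022E.R
export Vale.Agent.P022D.R (
  hom_of_ev ker_set opn_of_le map_one' exists_can hom_map ev_C mat_inj ev_X πW_C πW
  closed_eq π_ev)
end Vale.Agent.P022E.R

namespace Vale.Agent.P022E.R.Obj
export Vale.Agent.P022D.R.Obj (
  finF nil map oneβ inv' pull surj)
end Vale.Agent.P022E.R.Obj

namespace Vale.Agent.P022E.R.Hom
export Vale.Agent.P022D.R.Hom (
  comp mat π ev β id)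
end Vale.Agent.P022E.R.Hom

namespace Vale.Agent.P022E.R.Unr
export Vale.Agent.P022D.R.Unr (
  mono)
end Vale.Agent.P022E.R.Unr

namespace Vale.Agent.P022E.R.Loc
export Vale.Agent.P022D.R.Loc (
  mono)
end Vale.Agent.P022E.R.Loc

namespace Vale.Agent.P022E.R.Closed
export Vale.Agent.P022D.R.Closed (
  ty and)
end Vale.Agent.P022E.R.Closed
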