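import Vale.Agent.P022D.R.Tan
import Vale.Agent.P022E.R.Obj
import Vale.Agent.P022E.NR.Tan

namespace Vale.Agent.P022E.R
export Vale.Agent.P022D.R (
  sm rb_inv sm_mul triv sm_inl rb_inv' rb_mul fst_α dual fst_ρ tanP der_rank sm_one)
end Vale.Agent.P022E.R
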