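import Vale.Agent.P022D.R.Univ
import Vale.Agent.P022E.R.Tan

namespace Vale.Agent.P022E.R
export Vale.Agent.P022D.R (
  vals KK inf_mem kers_le fam KK_le exists_isK le_KK univ kers_mono span_le_sup univ_fam
  step ker_le IsK can_ker Gn ker_mem can_hom Kers)
end Vale.Agent.P022E.R

namespace Vale.Agent.P022E.R.IsK
export Vale.Agent.P022D.R.IsK (
  mono sub)
end Vale.Agent.P022E.R.IsK

namespace Vale.Agent.P022E.R.Gn
export Vale.Agent.P022D.R.Gn (
  mono)
end Vale.Agent.P022E.R.Gn
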